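import Mathlib

/-! Fibres of the gradient of a convex envelope from `Vᶜ`: every point is in the convex hull of
the points of its fibre outside `V`. Abstract input (block COL of P073). -/

open Set Metric
open scoped NNReal Topology

set_option linter.unusedSectionVars false

namespace Vale.Agent.P073.H195.ColFib

section hull

variable {V : Type*} [NormedAddCommGroup V] [NormedSpace ℝ V] [FiniteDimensional ℝ V]

/-- Caratheodory with a fixed number of vertices. -/
theorem exists_rep {S : Set V} {u : V} (hu : u ∈ convexHull ℝ S) :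
    ∃ (lam : Fin (Module.finrank ℝ V + 1) → ℝ) (w : Fin (Module.finrank ℝ V + 1) → V),
      (∀ j, 0 ≤ lam j) ∧ ∑ j, lam j = 1 ∧ (∀ j, w j ∈ S) ∧ ∑ j, lam j • w j = u := by
  classical
  obtain ⟨ι, hι, w, c, hw, hind, hc, hsum, hcomb⟩ := eq_pos_convex_span_of_mem_convexHull hu
  have hcard : Fintype.card ι ≤ Module.finrank ℝ V + 1 := by
    have h1 := hind.card_le_finrank_succ
    have h2 : Module.finrank ℝ (vectorSpan ℝ (Set.range w))
        ≤ Module.finrank ℝ V := Submodule.finrank_le _
    omega
  have hne : Nonempty ι := by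
    by_contra hemp
    rw [not_nonempty_iff] at hemp
    rw [Fintype.sum_empty] at hsum
    exact zero_ne_one hsum
  obtain ⟨i₀⟩ := hne
  obtain ⟨f⟩ : Nonempty (ι ↪ Fin (Module.finrank ℝ V + 1)) := by
    apply Function.Embedding.nonempty_of_card_le
    rwa [Fintype.card_fin]
  refine ⟨Function.extend f c 0, Function.extend f w (fun _ => w i₀), ?_, ?_, ?_, ?_⟩
  · intro j
    by_cases hj : ∃ i, f i = j
    · obtain ⟨i, rfl⟩ := hj
      rw [f.injective.extend_apply]
      exact (hc i).le
    · rw [Function.extend_apply' _ _ _ hj]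
      exact le_rfl
  · rw [← hsum]
    symm
    apply Fintype.sum_of_injective f f.injective
    · intro j hj
      rw [Function.extend_apply' _ _ _ (by simpa using hj)]
      rfl
    · intro i
      rw [f.injective.extend_apply]
  · intro j
    by_cases hj : ∃ i, f i = j
    · obtain ⟨i, rfl⟩ := hj
      rw [f.injective.extend_apply]
      exact hw ⟨i, rfl⟩
    · rw [Function.extend_apply' _ _ _ hj]
      exact hw ⟨i₀, rfl⟩
  · rw [← hcomb]
    symm
    apply Fintype.sum_of_injective f f.injective
    · intro j hj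
      rw [Function.extend_apply' c (0 : Fin (Module.finrank ℝ V + 1) → ℝ) j (by simpa using hj)]
      exact zero_smul ℝ _
    · intro i
      rw [f.injective.extend_apply, f.injective.extend_apply]

theorem isCompact_hull {S : Set V} (hS : IsCompact S) : IsCompact (convexHull ℝ S) := by
  classical
  set n := Module.finrank ℝ V + 1 with hn
  have hc : IsCompact ((stdSimplex ℝ (Fin n)) ×ˢ (Set.pi univ (fun _ : Fin n => S))) :=
    (isCompact_stdSimplex ℝ (Fin n)).prod (isCompact_univ_pi fun _ => hS)
  have hcont : Continuous (fun p : (Fin n → ℝ) × (Fin n → V) => ∑ j, p.1 j • p.2 j) := by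
    fun_prop
  have himg := hc.image hcont
  have heq : convexHull ℝ S = (fun p : (Fin n → ℝ) × (Fin n → V) =>
      ∑ j, p.1 j • p.2 j) '' ((stdSimplex ℝ (Fin n)) ×ˢ
      (Set.pi univ (fun _ : Fin n => S))) := by
    apply Set.Subset.antisymm
    · intro u hu
      obtain ⟨lam, w, h0, h1, hw, hsum⟩ := exists_rep hu
      exact ⟨(lam, w), ⟨⟨h0, h1⟩, fun j _ => hw j⟩, hsum⟩
    · rintro _ ⟨⟨lam, w⟩, ⟨⟨h0, h1⟩, hw⟩, rfl⟩
      exact (convex_convexHull ℝ _).sum_mem (fun j _ => h0 j) h1
        (fun j _ => subset_convexHull ℝ _ (hw j (mem_univ _)))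
  rw [heq]
  exact himg

end hull

variable {E : Type*} [NormedAddCommGroup E] [InnerProductSpace ℝ E] [FiniteDimensional ℝ E]

/-- Input: `Phi` is a `C^{1,1}` convex function above `|y|^2/2`, `T` its gradient (given by the
two quadratic bounds), and `Phi` is the supremum of its affine minorants over `Vᶜ`. -/
structure Inp (V : Set E) (h : ℝ) (Phi : E → ℝ) (T : E → E) : Prop where
  sub : ∀ y z, Phi y + inner ℝ (T y) (z - y) ≤ Phi z
  up : ∀ y z, Phi z ≤ Phi y + inner ℝ (T y) (z - y) + (1 + h) / 2 * ‖z - y‖ ^ 2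
  ge : ∀ y, ‖y‖ ^ 2 / 2 ≤ Phi y
  env : ∀ (p : E) (c : ℝ), (∀ z, z ∉ V → inner ℝ p z + c ≤ Phi z) → ∀ y, inner ℝ p y + c ≤ Phi y
  op : IsOpen V
  hpos : 0 < h

namespace Inp

variable {V : Set E} {h : ℝ} {Phi : E → ℝ} {T : E → E}

theorem unique (hI : Inp V h Phi T) {x q : E}
    (hq : ∀ y, Phi x + inner ℝ q (y - x) ≤ Phi y) : q = T x := by
  by_contra hne
  have hh := hI.hpos
  have hd : 0 < ‖q - T x‖ := norm_pos_iff.2 (sub_ne_zero.2 hne)
  set d := q - T x with hdd
  have h1 : ∀ t : ℝ, 0 < t → t * ‖d‖ ^ 2 ≤ (1 + h) / 2 * (t ^ 2 * ‖d‖ ^ 2) := by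
    intro t ht
    have h2 := hq (x + t • d)
    have h3 := hI.up x (x + t • d)
    rw [add_sub_cancel_left, inner_smul_right] at h2 h3
    rw [norm_smul, mul_pow, Real.norm_eq_abs, sq_abs] at h3
    have h4 : inner ℝ q d - inner ℝ (T x) d = ‖d‖ ^ 2 := by
      rw [← inner_sub_left, ← hdd, real_inner_self_eq_norm_sq]
    nlinarith
  have h2 := h1 (1 / (1 + h)) (by positivity)
  have h3 : 0 < ‖d‖ ^ 2 := by positivity
  have h4 : (1 + h) / 2 * ((1 / (1 + h)) ^ 2 * ‖d‖ ^ 2) = 1 / 2 * (1 / (1 + h) * ‖d‖ ^ 2) := by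
    field_simp
  rw [h4] at h2
  have h5 : 0 < 1 / (1 + h) * ‖d‖ ^ 2 := by positivity
  linarith

/-- `T` is constant on the contact set of a supporting affine function. -/
theorem eq_of_contact (hI : Inp V h Phi T) {x y : E}
    (hy : Phi y = Phi x + inner ℝ (T x) (y - x)) : T y = T x := by
  symm
  apply hI.unique
  intro z
  have h1 := hI.sub x z
  have h2 : inner ℝ (T x) (z - x) = inner ℝ (T x) (z - y) + inner ℝ (T x) (y - x) := by
    rw [← inner_add_right]; congr 1; abel
  linarith

/-- conversely points of one fibre are contact points. -/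
theorem contact_of_eq (hI : Inp V h Phi T) {x y : E} (hy : T y = T x) :
    Phi y = Phi x + inner ℝ (T x) (y - x) := by
  have h1 := hI.sub x y
  have h2 := hI.sub y x
  rw [hy] at h2
  have h3 : inner ℝ (T x) (x - y) = - inner ℝ (T x) (y - x) := by
    rw [← inner_neg_right]; congr 1; abel
  linarith

theorem mono (hI : Inp V h Phi T) (x y : E) : 0 ≤ inner ℝ (T x - T y) (x - y) := by
  have h1 := hI.sub x y
  have h2 := hI.sub y x
  have h3 : inner ℝ (T x) (y - x) = - inner ℝ (T x) (x - y) := by
    rw [← inner_neg_right]; congr 1; abel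
  rw [inner_sub_left]
  linarith

theorem continuous (hI : Inp V h Phi T) : Continuous Phi := by
  have hh := hI.hpos
  rw [continuous_iff_continuousAt]
  intro x
  rw [ContinuousAt, tendsto_order]
  constructor
  · intro a ha
    have h1 : ContinuousAt (fun z => Phi x + inner ℝ (T x) (z - x)) x := by fun_prop
    have h2 : a < Phi x + inner ℝ (T x) (x - x) := by simpa using ha
    filter_upwards [h1.eventually (lt_mem_nhds h2)] with z hz
    exact hz.trans_le (hI.sub x z)
  · intro a ha
    have h1 : ContinuousAt (fun z => Phi x + inner ℝ (T x) (z - x) +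
      (1 + h) / 2 * ‖z - x‖ ^ 2) x := by fun_prop
    have h2 : Phi x + inner ℝ (T x) (x - x) + (1 + h) / 2 * ‖x - x‖ ^ 2 < a := by simpa using ha
    filter_upwards [h1.eventually (gt_mem_nhds h2)] with z hz
    exact (hI.up x z).trans_lt hz

/-- the contact points outside `V`. -/
def con (V : Set E) (T : E → E) (y : E) : Set E := {z | z ∉ V ∧ T z = T y}

theorem far (hI : Inp V h Phi T) (y p : E) (c : ℝ) :
    ∃ R : ℝ, 0 < R ∧ ∀ z, R ≤ ‖z‖ → inner ℝ p z + c < Phi z - Phi y - inner ℝ (T y) (z - y) := by
  refine ⟨2 * ‖p + T y‖ + 2 * |c + Phi y - inner ℝ (T y) y| + 1, by positivity, fun z hz => ?_⟩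
  have h1 := hI.ge z
  have h2 : inner ℝ (p + T y) z ≤ ‖p + T y‖ * ‖z‖ := real_inner_le_norm _ _
  rw [inner_add_left] at h2
  have h3 := le_abs_self (c + Phi y - inner ℝ (T y) y)
  have h4 := norm_nonneg (p + T y)
  have h5 := abs_nonneg (c + Phi y - inner ℝ (T y) y)
  rw [inner_sub_right]
  have h6 : ‖p + T y‖ * ‖z‖ + |c + Phi y - inner ℝ (T y) y| < ‖z‖ ^ 2 / 2 := by nlinarith
  linarith

theorem con_isCompact (hI : Inp V h Phi T) (y : E) : IsCompact (con V T y) := by
  obtain ⟨R, hR, hfar⟩ := hI.far y 0 0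
  have h1 : con V T y = {z | z ∉ V} ∩ {z | Phi z = Phi y + inner ℝ (T y) (z - y)} := by
    ext z
    constructor
    · rintro ⟨h1, h2⟩
      exact ⟨h1, hI.contact_of_eq h2⟩
    · rintro ⟨h1, h2⟩
      exact ⟨h1, hI.eq_of_contact h2⟩
  have hcl : IsClosed (con V T y) := by
    rw [h1]
    apply hI.op.isClosed_compl.inter
    apply isClosed_eq hI.continuous
    fun_prop
  apply Metric.isCompact_of_isClosed_isBounded hcl
  apply isBounded_closedBall (x := (0 : E)) (r := R) |>.subset
  intro z hz
  rw [mem_closedBall, dist_zero_right]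
  by_contra hcon
  push Not at hcon
  have h2 := hfar z hcon.le
  have h3 := hI.contact_of_eq hz.2
  rw [inner_zero_left] at h2
  linarith

/-- **every point is in the convex hull of the points of its fibre outside `V`.** -/
theorem mem_hull (hI : Inp V h Phi T) (y : E) : y ∈ convexHull ℝ (con V T y) := by
  set u : E → ℝ := fun z => Phi z - Phi y - inner ℝ (T y) (z - y) with hu
  have huc : Continuous u := by
    have := hI.continuous
    simp only [hu]
    fun_prop
  have hu0 : ∀ z, 0 ≤ u z := fun z => by have := hI.sub y z; simp only [hu]; linarith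
  have hKc := hI.con_isCompact y
  by_contra hx
  obtain ⟨f, c, hf1, hf2⟩ := geometric_hahn_banach_point_closed (convex_convexHull ℝ (con V T y))
    (isCompact_hull hKc).isClosed hx
  set η := (c - f y) / 2 with hη
  have hη0 : 0 < η := by rw [hη]; linarith
  have hKf : ∀ z ∈ con V T y, 2 * η < f z - f y := by
    intro z hz
    have := hf2 z (subset_convexHull ℝ _ hz)
    rw [hη]; linarith
  set wf := (InnerProductSpace.toDual ℝ E).symm f with hwf
  have hwfi : ∀ z, inner ℝ wf z = f z := fun z => InnerProductSpace.toDual_symm_apply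
  -- choose `d`
  obtain ⟨d, hd0, hd⟩ : ∃ d : ℝ, 0 < d ∧ ∀ z, z ∉ V → d * (η - (f z - f y)) ≤ u z := by
    obtain ⟨R, hR, hfar⟩ := hI.far y (-wf) (η + f y)
    have hfar' : ∀ z, R ≤ ‖z‖ → η - (f z - f y) < u z := by
      intro z hz
      have := hfar z hz
      rw [inner_neg_left, hwfi] at this
      simp only [hu]
      linarith
    set A := ({z | z ∉ V} ∩ {z | f z - f y ≤ η}) ∩ closedBall (0 : E) R with hA
    have hAc : IsCompact A := by
      apply (isCompact_closedBall (0 : E) R).inter_left
      apply hI.op.isClosed_compl.inter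
      apply isClosed_le _ continuous_const
      fun_prop
    rcases A.eq_empty_or_nonempty with hAe | hAne
    · refine ⟨1, one_pos, fun z hz => ?_⟩
      rw [one_mul]
      by_cases hzR : R ≤ ‖z‖
      · exact (hfar' z hzR).le
      · push Not at hzR
        have hzA : z ∉ A := by rw [hAe]; exact notMem_empty z
        have : ¬ (f z - f y ≤ η) := fun h => hzA ⟨⟨hz, h⟩, by
          rw [mem_closedBall, dist_zero_right]; exact hzR.le⟩
        push Not at this
        have := hu0 z
        linarith
    · obtain ⟨z0, hz0, hmin⟩ := hAc.exists_isMinOn hAne huc.continuousOn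
      have hm : 0 < u z0 := by
        refine lt_of_le_of_ne (hu0 z0) fun h => ?_
        have h1 : z0 ∈ con V T y := by
          refine ⟨hz0.1.1, hI.eq_of_contact ?_⟩
          simp only [hu] at h
          linarith
        have h2 := hKf z0 h1
        have h3 : f z0 - f y ≤ η := hz0.1.2
        linarith
      set M := η + ‖f‖ * (R + ‖y‖) with hM
      have hM0 : 0 < M := by have := norm_nonneg f; positivity
      refine ⟨min 1 (u z0 / M), by positivity, fun z hz => ?_⟩
      have hdpos : 0 < min 1 (u z0 / M) := by positivity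
      by_cases hneg : η - (f z - f y) ≤ 0
      · exact (mul_nonpos_of_nonneg_of_nonpos hdpos.le hneg).trans (hu0 z)
      push Not at hneg
      by_cases hzR : R ≤ ‖z‖
      · calc min 1 (u z0 / M) * (η - (f z - f y)) ≤ 1 * (η - (f z - f y)) := by
              gcongr; exact min_le_left _ _
          _ ≤ u z := by rw [one_mul]; exact (hfar' z hzR).le
      · push Not at hzR
        have hzA : z ∈ A := ⟨⟨hz, by show f z - f y ≤ η; linarith⟩, by
          rw [mem_closedBall, dist_zero_right]; exact hzR.le⟩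
        have h1 : u z0 ≤ u z := hmin hzA
        have h2 : η - (f z - f y) ≤ M := by
          have h3 : |f (z - y)| ≤ ‖f‖ * ‖z - y‖ := f.le_opNorm (z - y)
          rw [map_sub] at h3
          have h4 : ‖z - y‖ ≤ R + ‖y‖ := (norm_sub_le _ _).trans (by linarith)
          have h5 : ‖f‖ * ‖z - y‖ ≤ ‖f‖ * (R + ‖y‖) := by gcongr
          have := (abs_le.1 h3).1
          linarith
        calc min 1 (u z0 / M) * (η - (f z - f y)) ≤ (u z0 / M) * M := by
              gcongr; exact min_le_right _ _
          _ = u z0 := by field_simp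
          _ ≤ u z := h1
  have h1 := hI.env (T y - d • wf) (Phi y - inner ℝ (T y) y + d * (η + f y)) (fun z hz => by
    have h2 := hd z hz
    simp only [hu] at h2
    rw [inner_sub_right] at h2
    rw [inner_sub_left, inner_smul_left, conj_trivial, hwfi]
    linarith) y
  rw [inner_sub_left, inner_smul_left, conj_trivial, hwfi] at h1
  have : 0 < d * η := by positivity
  linarith

/-- the fibre meets the complement of `V` (input H3 of COL-PL). -/
theorem exists_out (hI : Inp V h Phi T) (y : E) : ∃ z, z ∉ V ∧ T z = T y := by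
  obtain ⟨z, hz⟩ := convexHull_nonempty_iff.1 ⟨y, hI.mem_hull y⟩
  exact ⟨z, hz⟩

/-- Jensen on a fibre. -/
theorem const_of_comb (hI : Inp V h Phi T) {ι : Type*} (t : Finset ι) (w : ι → ℝ) (z : ι → E)
    (y q : E) (hw0 : ∀ j ∈ t, 0 ≤ w j) (hw1 : ∑ j ∈ t, w j = 1) (hz : ∀ j ∈ t, T (z j) = T y)
    (hq : ∑ j ∈ t, w j • z j = q) : T q = T y := by
  apply hI.eq_of_contact
  apply le_antisymm _ (hI.sub y q)
  -- `Phi q + <T q, z j - q> ≤ Phi (z j)`
  have h1 : ∀ j ∈ t, w j * (Phi q + inner ℝ (T q) (z j - q)) ≤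
      w j * (Phi y + inner ℝ (T y) (z j - y)) := by
    intro j hj
    apply mul_le_mul_of_nonneg_left _ (hw0 j hj)
    rw [← hI.contact_of_eq (hz j hj)]
    exact hI.sub q (z j)
  have h2 := Finset.sum_le_sum h1
  have h3 : ∀ (a b : E) (c : ℝ), ∑ j ∈ t, w j * (c + inner ℝ a (z j - b)) =
      c + inner ℝ a (q - b) := by
    intro a b c
    have h4 : ∀ j ∈ t, w j * (c + inner ℝ a (z j - b)) =
        w j * (c - inner ℝ a b) + inner ℝ a (w j • z j) := by
      intro j _
      rw [inner_smul_right, inner_sub_right]; ring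
    rw [Finset.sum_congr rfl h4, Finset.sum_add_distrib, ← Finset.sum_mul, hw1, ← inner_sum, hq,
      inner_sub_right]
    ring
  rw [h3, h3, sub_self, inner_zero_right, add_zero] at h2
  exact h2

/-- **long fibres.** If `closedBall y s ⊆ V`, the fibre of `y` contains a segment through `y`,
of length at least `s` on one side and `s / n` on the other. -/
theorem long_fibre (hI : Inp V h Phi T) (hn : 0 < Module.finrank ℝ E) {y : E} {s : ℝ}
    (hs : 0 < s) (hB : closedBall y s ⊆ V) :
    ∃ v : E, ‖v‖ = 1 ∧ ∀ t : ℝ, -(s / Module.finrank ℝ E) ≤ t → t ≤ s → T (y + t • v) = T y := by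
  obtain ⟨lam, z, hl0, hl1, hz, hx⟩ := exists_rep (hI.mem_hull y)
  set n : ℝ := ((Module.finrank ℝ E : ℕ) : ℝ) with hndef
  have hn' : 0 < n := by rw [hndef]; exact_mod_cast hn
  obtain ⟨i, hi⟩ : ∃ i, 1 / (n + 1) ≤ lam i := by
    by_contra hcon
    push Not at hcon
    have h1 : ∑ j, lam j < ∑ _j : Fin (Module.finrank ℝ E + 1), (1 / (n + 1) : ℝ) := by
      apply Finset.sum_lt_sum_of_nonempty
      · exact ⟨0, Finset.mem_univ _⟩
      · intro j _; exact hcon j
    rw [hl1, Finset.sum_const, Finset.card_univ, Fintype.card_fin, nsmul_eq_mul] at h1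
    push_cast at h1
    rw [← hndef] at h1
    field_simp at h1
    linarith
  have hzi : s < ‖z i - y‖ := by
    by_contra hcon
    push Not at hcon
    exact (hz i).1 (hB (by rw [mem_closedBall, dist_eq_norm]; exact hcon))
  set r := ‖z i - y‖ with hr
  have hr0 : 0 < r := hs.trans hzi
  refine ⟨r⁻¹ • (z i - y), ?_, fun t ht1 ht2 => ?_⟩
  · rw [norm_smul, norm_inv, norm_norm]
    exact inv_mul_cancel₀ hr0.ne'
  set κ := -(t / r) with hκ
  have hκ1 : -1 ≤ κ := by
    have : t / r ≤ 1 := by rw [div_le_iff₀ hr0]; linarith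
    rw [hκ]; linarith
  have hκ2 : κ ≤ 1 / n := by
    have h1 : -(1 / n) ≤ t / r := by
      rw [le_div_iff₀ hr0]
      have h2 : s / n ≤ 1 / n * r := by
        rw [div_eq_mul_one_div, mul_comm]; gcongr
      linarith
    rw [hκ]; linarith
  have hpt : y + t • r⁻¹ • (z i - y) = (1 + κ) • y - κ • z i := by
    have h1 : t • r⁻¹ • (z i - y) = (-κ) • (z i - y) := by
      rw [smul_smul, hκ, neg_neg, div_eq_mul_inv]
    rw [h1]; module
  rw [hpt]
  set w' : Fin (Module.finrank ℝ E + 1) → ℝ := fun j => (1 + κ) * lam j - if j = i then κ else 0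
    with hw'
  apply hI.const_of_comb Finset.univ w' z y
  · intro j _
    simp only [hw']
    split_ifs with h
    · subst h
      have h1 : κ * (1 - lam j) ≤ lam j := by
        have h2 : lam j ≤ 1 := by
          rw [← hl1]
          exact Finset.single_le_sum (fun k _ => hl0 k) (Finset.mem_univ j)
        by_cases hk : κ ≤ 0
        · have : κ * (1 - lam j) ≤ 0 := mul_nonpos_of_nonpos_of_nonneg hk (by linarith)
          linarith [hl0 j]
        · push Not at hk
          have h3 : κ * (1 - lam j) ≤ 1 / n * (1 - 1 / (n + 1)) := by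
            apply mul_le_mul hκ2 (by linarith) (by linarith) (by positivity)
          have h4 : 1 / n * (1 - 1 / (n + 1)) = 1 / (n + 1) := by field_simp; ring
          linarith
      linarith
    · have := hl0 j
      have : 0 ≤ 1 + κ := by linarith
      rw [sub_zero]; positivity
  · simp only [hw']
    rw [Finset.sum_sub_distrib, ← Finset.mul_sum, hl1, Finset.sum_ite_eq' Finset.univ i]
    simp
  · intro j _; exact (hz j).2
  · simp only [hw', sub_smul]
    rw [Finset.sum_sub_distrib]
    have h1 : ∑ j, ((1 + κ) * lam j) • z j = (1 + κ) • y := by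
      rw [← hx, Finset.smul_sum]
      exact Finset.sum_congr rfl fun j _ => by rw [smul_smul]
    have h2 : ∑ j, (if j = i then κ else 0) • z j = κ • z i := by
      rw [Finset.sum_eq_single i]
      · rw [if_pos rfl]
      · intro j _ hj; rw [if_neg hj, zero_smul]
      · intro h; exact absurd (Finset.mem_univ i) h
    rw [h1, h2]

/-- fibres are convex. -/
theorem fibre_convex (hI : Inp V h Phi T) (y : E) : Convex ℝ {z | T z = T y} := by
  intro a ha b hb s t hs ht hst
  have := hI.const_of_comb Finset.univ ![s, t] ![a, b] y (s • a + t • b)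
    (fun j _ => by fin_cases j <;> simpa) (by simpa using hst)
    (fun j _ => by fin_cases j <;> simpa) (by simp)
  exact this

/-- `y` is in the convex hull of two points of its fibre outside any set `B` disjoint from the
contact points. -/
theorem mem_hull_of_subset (hI : Inp V h Phi T) (y : E) {S : Set E}
    (hS : ∀ z, z ∉ V → T z = T y → z ∈ S) : y ∈ convexHull ℝ S :=
  convexHull_mono (fun z hz => hS z hz.1 hz.2) (hI.mem_hull y)

end Inp

end Vale.Agent.P073.H195.ColFib
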