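import Vale.Agent.P073.Conical

/-! Descending conical maps along a conical surjection of a compact set (31's (C2)). -/

open Set Metric Topology Filter

namespace P073.H195

variable {E F G : Type*} [NormedAddCommGroup E] [NormedSpace ℝ E]
  [NormedAddCommGroup F] [NormedSpace ℝ F] [NormedAddCommGroup G] [NormedSpace ℝ G]

omit [NormedSpace ℝ E] [NormedSpace ℝ F] in
/-- all preimages of points near `y` are near the fibre of `y` -/
theorem eventually_fibre {X : Set E} {π : E → F} (hX : IsCompact X) (hπ : ContinuousOn π X)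
    {y : F} {U : Set E} (hU : IsOpen U) (hfib : ∀ x ∈ X, π x = y → x ∈ U) :
    ∀ᶠ z in 𝓝 y, ∀ x ∈ X, π x = z → x ∈ U := by
  have hK : IsCompact (X \ U) := hX.diff hU
  have hKπ : IsCompact (π '' (X \ U)) := hK.image_of_continuousOn (hπ.mono diff_subset)
  have hy : y ∉ π '' (X \ U) := by
    rintro ⟨x, hx, hxy⟩
    exact hx.2 (hfib x hx.1 hxy)
  filter_upwards [hKπ.isClosed.isOpen_compl.mem_nhds hy] with z hz x hx hxz
  by_contra hxU
  exact hz ⟨x, ⟨hx, hxU⟩, hxz⟩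

omit [NormedSpace ℝ E] [NormedSpace ℝ F] [NormedSpace ℝ G] in
theorem continuousOn_descend {X : Set E} {π : E → F} {f : E → G} {b : F → G}
    (hX : IsCompact X) (hπ : ContinuousOn π X) (hf : ContinuousOn f X)
    (hb : ∀ x ∈ X, b (π x) = f x) : ContinuousOn b (π '' X) := by
  rintro _ ⟨x₀, hx₀, rfl⟩
  rw [ContinuousWithinAt, Metric.tendsto_nhds]
  intro ε hε
  -- open set where `f` is close to `b (π x₀)`
  have h1 := (_root_.continuousOn_iff'.1 hf) (ball (b (π x₀)) ε) isOpen_ball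
  obtain ⟨U, hUo, hU⟩ := h1
  have hfib : ∀ x ∈ X, π x = π x₀ → x ∈ U := by
    intro x hx hxy
    have h2 : x ∈ f ⁻¹' ball (b (π x₀)) ε ∩ X := by
      refine ⟨?_, hx⟩
      rw [mem_preimage, ← hb x hx, hxy]
      exact mem_ball_self hε
    rw [hU] at h2
    exact h2.1
  have h3 := eventually_fibre hX hπ hUo hfib
  filter_upwards [mem_nhdsWithin_of_mem_nhds h3, self_mem_nhdsWithin] with z hz hzY
  obtain ⟨x, hx, rfl⟩ := hzY
  have h4 : x ∈ U ∩ X := ⟨hz x hx rfl, hx⟩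
  rw [← hU] at h4
  rw [hb x hx]
  exact h4.1

/-- **descent**: if `π` and `f = b ∘ π` are conical on the compact set `X`, then `b` is conical
on `π '' X`. -/
theorem _root_.P073.ConicalOn.descend {X : Set E} {π : E → F} {f : E → G} {b : F → G}
    (hX : IsCompact X) (hπ : ContinuousOn π X) (hπc : ConicalOn π X) (hfc : ConicalOn f X)
    (hb : ∀ x ∈ X, b (π x) = f x) : ConicalOn b (π '' X) := by
  rintro _ ⟨x₀, hx₀, rfl⟩
  set y := π x₀ with hy
  -- radius at each point of the fibre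
  have hr : ∀ x ∈ X, π x = y → ∃ r > 0, ∀ v : E, ‖v‖ ≤ r → x + v ∈ X → ∀ t ∈ Icc (0:ℝ) 1,
      x + t • v ∈ X ∧ π (x + t • v) = π x + t • (π (x + v) - π x) ∧
        f (x + t • v) = f x + t • (f (x + v) - f x) := by
    intro x hx _
    obtain ⟨r₁, hr₁, h₁⟩ := hπc x hx
    obtain ⟨r₂, hr₂, h₂⟩ := hfc x hx
    refine ⟨min r₁ r₂, lt_min hr₁ hr₂, fun v hv hxv t ht => ?_⟩
    have h3 := h₁ v (hv.trans (min_le_left _ _)) hxv t ht
    have h4 := h₂ v (hv.trans (min_le_right _ _)) hxv t ht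
    exact ⟨h3.1, h3.2, h4.2⟩
  choose! r hr0 hr1 using hr
  set U : Set E := ⋃ x ∈ {x | x ∈ X ∧ π x = y}, ball x (r x) with hUdef
  have hUo : IsOpen U := isOpen_biUnion fun x _ => isOpen_ball
  have hfib : ∀ x ∈ X, π x = y → x ∈ U := by
    intro x hx hxy
    exact mem_biUnion (show x ∈ {x | x ∈ X ∧ π x = y} from ⟨hx, hxy⟩)
      (mem_ball_self (hr0 x hx hxy))
  have h3 := eventually_fibre hX hπ hUo hfib
  obtain ⟨ρ, hρ, hb2⟩ := Metric.nhds_basis_closedBall.mem_iff.1 h3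
  refine ⟨ρ, hρ, fun w hw hyw t ht => ?_⟩
  have h4 : y + w ∈ closedBall y ρ := by
    rw [mem_closedBall, dist_eq_norm, add_sub_cancel_left]; exact hw
  have h5 := hb2 h4
  obtain ⟨x', hx', hx'w⟩ := hyw
  have h6 : x' ∈ U := h5 x' hx' hx'w
  rw [hUdef, mem_iUnion₂] at h6
  obtain ⟨x, ⟨hx, hxy⟩, hxx'⟩ := h6
  have h7 : ‖x' - x‖ ≤ r x := by
    rw [mem_ball, dist_eq_norm] at hxx'
    exact hxx'.le
  obtain ⟨h8, h9, h10⟩ := hr1 x hx hxy (x' - x) h7 (by rw [add_sub_cancel]; exact hx') t ht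
  rw [add_sub_cancel] at h9 h10
  have h11 : π (x + t • (x' - x)) = y + t • w := by
    rw [h9, hxy, hx'w, add_sub_cancel_left]
  refine ⟨⟨_, h8, h11⟩, ?_⟩
  rw [← h11, hb _ h8, h10, ← hb x hx, ← hb x' hx', hxy, hx'w]

end P073.H195
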